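import Vale.Agent.P167.N.Kit
import Vale.Agent.P167.N.H662.L.LDefs
import Vale.Agent.P167.H760.L.Big

/-! generated from Vale.Agent.P167.H760.L.Big (q < 1 port) -/

set_option autoImplicit false

namespace Vale.Agent.P167.N.H760.L

open Vale.Agent.P167.H760.L Vale.Agent.P167.H760

open Finset MeasureTheory Filter Topology

open Vale.Agent.P167 Vale.Agent.P167.BR Vale.Agent.P167.FK

open Vale.Agent.P167.H562 (Em)

open Vale.Agent.P167.H562.GL (Nu lim_le loc_integrable)

open Vale.Agent.P167.H519 (IsLim)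

open Vale.Agent.P167.H562.QM (MajA macro_UA CrossSP)

open Vale.Agent.P167.H542.Q (int_le_of_lintN)

open Vale.Agent.P167.FKA (Loc Ind armPx_iff loc_arm ArmDec)

open Vale.Agent.P167.H662.L (Inp S_big S_mac)

open Vale.Agent.P167.H638.L (dvf cel blk bigV mass_sum sum_blk dvf_sum abs_mass_le mass_dvf_zero
  blk_ne l1_blk)

open Vale.Agent.P167.H45 (meas_locfun box_fin)

variable {P ν : Measure Cfg} {D T U : Finset (ℤ × ℤ)} {p : ℤ × ℤ} {ω ω' : Cfg} {A : Finset Ed}

/-- **(L-BIG)** -/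
theorem l_big {q al Ca : ℝ} (hI : Vale.Agent.P167.N.H662.L.Inp q al Ca P) : S_big P := by
  classical
  obtain ⟨C, α, hC, hα, hbig⟩ := mean_BgT' hI.crsS hI.al0 hI.Ca0 (armP1 hI.lim hI.arm)
  refine ⟨32 * C, α, by positivity, hα, fun D T p c h d m1 m2 ν hh hd hcD hcT hm1 hm2 hTD hν => ?_⟩
  have hνp : IsProbabilityMeasure ν := hν.prob
  have hh1 : (1 : ℝ) ≤ h := by exact_mod_cast hh
  have hm10 : 0 ≤ m1 := (abs_nonneg _).trans (hm1 (Sum.inl (0, 0)))
  have hm20 : 0 ≤ m2 := (abs_nonneg _).trans (hm2 0)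
  set Lb : ℝ := (h + 1) ^ 2 * m2 + 16 * (h + 1) * m1 with hLb
  have hLb0 : 0 ≤ Lb := by positivity
  have hi : ∀ b : ℤ × ℤ, Integrable (fun ω => ((BgT D T h b d ω).card : ℝ)) ν := fun b =>
    loc_integrable (loc_BgT D T h b d fun n => (n : ℝ))
  have hloc : Loc D (bigV D p (dvf c) d) := by
    intro ω ω' hw
    unfold bigV
    rw [BR.pcs_congr hw]
  have hpt : ∀ ω, bigV D p (dvf c) d ω ≤
      ∑ b ∈ cel T h, Lb * ((BgT D T h b d ω).card : ℝ) := by
    intro ω
    unfold bigV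
    calc ∑ A ∈ (pcs ω D).filter (fun A => ¬ Small d A), |mass D p (dvf c) A|
        ≤ ∑ A ∈ (pcs ω D).filter (fun A => ¬ Small d A), ∑ b ∈ cel T h,
            Lb * (if ∃ e ∈ A, hdv e ∈ T ∧ ((hdv e).1 / h, (hdv e).2 / h) = b then 1 else 0) := by
          refine Finset.sum_le_sum fun A hA => ?_
          have h1 := mass_blkT (p := p) hcD hcT (subset_eds (Finset.mem_filter.1 hA).1) h
          refine h1.trans (Finset.sum_le_sum fun b _ => ?_)
          refine mul_le_mul ?_ (le_of_eq ?_) ?_ hLb0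
          · exact l1_blk hh b hm1 hm2
          · congr
          · split_ifs <;> norm_num
      _ = ∑ b ∈ cel T h, Lb * (((((pcs ω D).filter (fun A => ¬ Small d A)).filter
            (fun A => ∃ e ∈ A, hdv e ∈ T ∧ ((hdv e).1 / h, (hdv e).2 / h) = b)).card : ℕ) :
              ℝ) := by
          rw [Finset.sum_comm]
          refine Finset.sum_congr rfl fun b _ => ?_
          rw [← Finset.mul_sum, Finset.sum_boole]
      _ ≤ _ := by
          refine Finset.sum_le_sum fun b _ => mul_le_mul_of_nonneg_left ?_ hLb0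
          have : (((pcs ω D).filter (fun A => ¬ Small d A)).filter
              (fun A => ∃ e ∈ A, hdv e ∈ T ∧ ((hdv e).1 / h, (hdv e).2 / h) = b)).card ≤
              (BgT D T h b d ω).card := by
            refine Finset.card_le_card fun A hA => ?_
            obtain ⟨h1, h2⟩ := Finset.mem_filter.1 hA
            obtain ⟨h3, h4⟩ := Finset.mem_filter.1 h1
            exact Finset.mem_filter.2 ⟨h3, h2, h4⟩
          exact_mod_cast this
  calc ∫ ω, bigV D p (dvf c) d ω ∂ν
      ≤ ∫ ω, ∑ b ∈ cel T h, Lb * ((BgT D T h b d ω).card : ℝ) ∂ν :=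
        integral_mono (loc_integrable hloc)
          (integrable_finsetSum _ fun b _ => (hi b).const_mul _) hpt
    _ = ∑ b ∈ cel T h, Lb * ∫ ω, ((BgT D T h b d ω).card : ℝ) ∂ν := by
        rw [integral_finsetSum _ fun b _ => (hi b).const_mul _]
        exact Finset.sum_congr rfl fun b _ => integral_const_mul _ _
    _ ≤ ∑ _b ∈ cel T h, Lb * (C * ((h : ℝ) / d) ^ α) :=
        Finset.sum_le_sum fun b _ => mul_le_mul_of_nonneg_left
          (hbig D T D h b d ν hh hd (fun u hu v hv => hTD u hu v (by linarith)) hν) hLb0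
    _ = ((cel T h).card : ℝ) * (Lb * (C * ((h : ℝ) / d) ^ α)) := by
        rw [Finset.sum_const, nsmul_eq_mul]
    _ ≤ ((cel T h).card : ℝ) * ((32 * (h ^ 2 * m2 + h * m1)) * (C * ((h : ℝ) / d) ^ α)) := by
        have hp : 0 ≤ C * ((h : ℝ) / d) ^ α := by
          have : 0 < d := by linarith
          positivity
        refine mul_le_mul_of_nonneg_left (mul_le_mul_of_nonneg_right ?_ hp) (by positivity)
        rw [hLb]
        have h3 : ((h : ℝ) + 1) ^ 2 ≤ 4 * h ^ 2 := by nlinarith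
        have h4 : ((h : ℝ) + 1) ≤ 2 * h := by linarith
        have h5 : ((h : ℝ) + 1) ^ 2 * m2 ≤ 4 * h ^ 2 * m2 := mul_le_mul_of_nonneg_right h3 hm20
        have h6 : 16 * ((h : ℝ) + 1) * m1 ≤ 16 * (2 * h) * m1 := by
          refine mul_le_mul_of_nonneg_right ?_ hm10
          linarith
        have h7 : 0 ≤ (h : ℝ) ^ 2 * m2 := by positivity
        nlinarith
    _ = _ := by ring

/-- **(L-MAC)** -/
theorem l_mac {q al Ca : ℝ} (hI : Vale.Agent.P167.N.H662.L.Inp q al Ca P) : S_mac P := by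
  classical
  intro κ R M hκ hR hM
  obtain ⟨ε, C, ρ0, hε, hC, hρ0, H⟩ := macro_UA hI.crsS κ R (Real.log M) 0 hκ hR
  refine ⟨C, ρ0, hC, hρ0, fun n hn D p K δ ν hG hδ hD hν => ?_⟩
  have hνp : IsProbabilityMeasure ν := hν.prob
  have hn0 : 0 < n := by linarith
  have hκn : 0 < κ * n := by positivity
  set A : Finset (ℤ × ℤ) := D.filter fun v => ∃ z ∈ K, nm (v - z) ≤ 1 with hA
  have hA1 : ∀ z ∈ K, ∀ v, nm (v - z) ≤ 1 → v ∈ A := by
    intro z hz v hv
    have h1 : (nm (v - z) : ℝ) ≤ 1 := by exact_mod_cast hv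
    exact Finset.mem_filter.2 ⟨hG.nbhd z hz v (by linarith), z, hz, hv⟩
  obtain ⟨N, hN1, hN2, hN3⟩ := H n hn 0 A (fun v hv => by
    rw [sub_zero]
    exact hD v (Finset.mem_filter.1 hv).1) (fun i => i.elim0)
  have hEm := hN3 D ν (fun u hu v hv => by
    obtain ⟨-, z, hz, hzu⟩ := Finset.mem_filter.1 hu
    refine hG.nbhd z hz v ?_
    have h5 : nm (v - z) ≤ nm (v - u) + nm (u - z) := by
      simpa using H45.nm_add_le (v - u) (u - z)
    have h6 : (nm (v - z) : ℝ) ≤ nm (v - u) + 1 := by exact_mod_cast h5.trans (by linarith)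
    linarith) hν
  have hle : ∀ ω, (H542.Q.mak K (κ * n) D ω).card ≤ N ω := fun ω =>
    H542.Q.card_mak_le hA1 (hN2 ω)
  refine int_le_of_lintN (fun ω => by positivity) (meas_locfun D fun ω ω' hw => by
    rw [H542.Q.mak_loc K (κ * n) D hw]) hC.le (le_trans (lintegral_mono fun ω => ?_) hEm)
  refine ENNReal.ofReal_le_ofReal ?_
  have hM0 : 0 < M := by linarith
  calc M ^ (H542.Q.mak K (κ * n) D ω).card ≤ M ^ N ω := pow_le_pow_right₀ hM (hle ω)
    _ = Real.exp (Real.log M * N ω) := by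
        rw [mul_comm, Real.exp_nat_mul, Real.exp_log hM0]

end Vale.Agent.P167.N.H760.L
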